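import Vale.Agent.P139.H940.Res1

/-!
# P139 / H940 : the resolvent of the free flow is a Wiener function (X3a)
-/

open MeasureTheory Complex Set FourierTransform Filter Topology
open scoped ContDiff Real

namespace Vale.Agent.P139.H940

open Vale.Agent.P139.BU

variable {d : ℕ}

theorem integral_dil {F : Type*} [NormedAddCommGroup F] [NormedSpace ℝ F] (g : E d → F) {c : ℝ}
    (hc : 0 < c) : ∫ η, (c ^ d) • g (c • η) = ∫ ξ, g ξ := by
  rw [integral_smul, Measure.integral_comp_smul, finrank_euclideanSpace, Fintype.card_fin,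
    abs_of_pos (by positivity), smul_smul, mul_inv_cancel₀ (by positivity), one_smul]

/-- the product density -/
noncomputable def Phi (κ : ℂ) (φ : E d → ℂ) (p : ℝ × E d) : ℂ :=
  (Real.exp (p.1 / 2) ^ d) • ker κ φ (p.1, Real.exp (p.1 / 2) • p.2)

/-- the density of the resolvent -/
noncomputable def dens (κ : ℂ) (φ : E d → ℂ) (η : E d) : ℂ := ∫ t in Ioi (0 : ℝ), Phi κ φ (t, η)

/-- dominating function -/
noncomputable def Dom (b : ℝ) (g : E d → ℝ) (p : ℝ × E d) : ℝ :=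
  Real.exp (-b * p.1) * ((Real.exp (p.1 / 2) ^ d) • g (Real.exp (p.1 / 2) • p.2))

theorem measurable_dilate : Measurable fun p : ℝ × E d => Real.exp (p.1 / 2) • p.2 :=
  Continuous.measurable (by fun_prop)

theorem measurable_Phi (κ : ℂ) {φ : E d → ℂ} (hm : Measurable φ) : Measurable (Phi κ φ) := by
  have h1 : Measurable fun p : ℝ × E d => Real.exp (p.1 / 2) ^ d :=
    Continuous.measurable (by fun_prop)
  exact h1.smul ((measurable_ker hm).comp (measurable_fst.prodMk measurable_dilate))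

theorem measurable_Dom (b : ℝ) {g : E d → ℝ} (hm : Measurable g) : Measurable (Dom b g) := by
  have h1 : Measurable fun p : ℝ × E d => Real.exp (p.1 / 2) ^ d :=
    Continuous.measurable (by fun_prop)
  have h2 : Measurable fun p : ℝ × E d => Real.exp (-b * p.1) :=
    Continuous.measurable (by fun_prop)
  exact h2.mul (h1.smul (hm.comp measurable_dilate))

theorem integrable_Dom {b : ℝ} (hb : 0 < b) {g : E d → ℝ} (hm : Measurable g) (hg : Integrable g)
    (h0 : ∀ x, 0 ≤ g x) : Integrable (Dom b g) (pm d) := by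
  rw [integrable_prod_iff (measurable_Dom b hm).aestronglyMeasurable]
  refine ⟨Filter.Eventually.of_forall fun t => ?_, ?_⟩
  · have := (hg.comp_smul (R := Real.exp (t / 2)) (Real.exp_pos _).ne')
    exact ((this.smul (Real.exp (t / 2) ^ d))).const_mul (Real.exp (-b * t))
  · refine ((integrable_exp hb).mul_const (∫ x, g x)).congr
      (Filter.Eventually.of_forall fun t => ?_)
    simp only
    rw [← integral_dil g (Real.exp_pos (t / 2)), ← integral_const_mul]
    refine integral_congr_ae (Filter.Eventually.of_forall fun η => ?_)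
    simp only
    rw [Real.norm_of_nonneg]
    · rfl
    · unfold Dom
      have := h0 (Real.exp (t / 2) • η)
      simp only [smul_eq_mul]
      positivity

theorem integral_Dom {b : ℝ} (hb : 0 < b) {g : E d → ℝ} (hm : Measurable g) (hg : Integrable g)
    (h0 : ∀ x, 0 ≤ g x) : ∫ η, ∫ t in Ioi (0 : ℝ), Dom b g (t, η) = (∫ x, g x) / b := by
  rw [← integral_prod_symm _ (integrable_Dom hb hm hg h0), integral_prod _
    (integrable_Dom hb hm hg h0)]
  have : ∀ t : ℝ, ∫ η, Dom b g (t, η) = Real.exp (-b * t) * ∫ x, g x := by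
    intro t
    simp only [Dom]
    rw [integral_const_mul, integral_dil g (Real.exp_pos (t / 2))]
  simp only [this]
  rw [integral_mul_const, integral_exp' hb]
  ring

theorem norm_Phi (κ : ℂ) (φ : E d → ℂ) (p : ℝ × E d) :
    ‖Phi κ φ p‖ = Dom κ.re (fun x => ‖φ x‖) p := by
  rw [Phi, norm_smul, norm_ker, Dom, Real.norm_of_nonneg (by positivity)]
  simp only [smul_eq_mul]
  ring

theorem weight_Phi_le (κ : ℂ) (φ : E d → ℂ) (s : ℕ) {t : ℝ} (ht : 0 < t) (η : E d) :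
    (1 + ‖η‖ ^ s) * ‖Phi κ φ (t, η)‖
      ≤ Dom κ.re (fun x => (1 + ‖x‖ ^ s) * ‖φ x‖) (t, η) := by
  rw [norm_Phi]
  unfold Dom
  simp only [smul_eq_mul]
  have h1 : 1 ≤ Real.exp (t / 2) := Real.one_le_exp (by linarith)
  have h2 : ‖η‖ ≤ ‖Real.exp (t / 2) • η‖ := by
    rw [norm_smul, Real.norm_of_nonneg (Real.exp_pos _).le]
    nlinarith [norm_nonneg η]
  calc (1 + ‖η‖ ^ s) * (Real.exp (-κ.re * t) *
        (Real.exp (t / 2) ^ d * ‖φ (Real.exp (t / 2) • η)‖))
      = Real.exp (-κ.re * t) *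
        (Real.exp (t / 2) ^ d * ((1 + ‖η‖ ^ s) * ‖φ (Real.exp (t / 2) • η)‖)) := by ring
    _ ≤ _ := by gcongr

theorem integrable_Phi {κ : ℂ} (hκ : 0 < κ.re) {φ : E d → ℂ} (hm : Measurable φ)
    (hφ : Integrable φ) : Integrable (Phi κ φ) (pm d) := by
  rw [← integrable_norm_iff (measurable_Phi κ hm).aestronglyMeasurable]
  simp only [norm_Phi]
  exact integrable_Dom hκ hm.norm hφ.norm fun _ => norm_nonneg _

theorem integrable_dens {κ : ℂ} (hκ : 0 < κ.re) {φ : E d → ℂ} (hm : Measurable φ)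
    (hφ : Integrable φ) : Integrable (dens κ φ) :=
  (integrable_Phi hκ hm hφ).integral_prod_right

theorem weight_dens_le {κ : ℂ} (hκ : 0 < κ.re) {φ : E d → ℂ} (hm : Measurable φ) (s : ℕ)
    (hφs : Integrable (fun ξ => (1 + ‖ξ‖ ^ s) * ‖φ ξ‖)) :
    ∀ᵐ η : E d, (1 + ‖η‖ ^ s) * ‖dens κ φ η‖ ≤
      ∫ t in Ioi (0 : ℝ), Dom κ.re (fun x => (1 + ‖x‖ ^ s) * ‖φ x‖) (t, η) := by
  have hgm : Measurable (fun x : E d => (1 + ‖x‖ ^ s) * ‖φ x‖) :=
    (Continuous.measurable (by fun_prop)).mul hm.norm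
  have hD := integrable_Dom hκ hgm hφs fun x => by positivity
  filter_upwards [hD.prod_left_ae] with η hη
  rw [dens]
  calc (1 + ‖η‖ ^ s) * ‖∫ t in Ioi (0 : ℝ), Phi κ φ (t, η)‖
      ≤ (1 + ‖η‖ ^ s) * ∫ t in Ioi (0 : ℝ), ‖Phi κ φ (t, η)‖ := by
        gcongr
        exact norm_integral_le_integral_norm _
    _ = ∫ t in Ioi (0 : ℝ), (1 + ‖η‖ ^ s) * ‖Phi κ φ (t, η)‖ := by
        rw [integral_const_mul]
    _ ≤ _ := by
        refine integral_mono_of_nonneg (Filter.Eventually.of_forall fun t => by positivity) hη ?_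
        filter_upwards [self_mem_ae_restrict measurableSet_Ioi] with t ht
        exact weight_Phi_le κ φ s ht η

theorem integrable_weight_dens {κ : ℂ} (hκ : 0 < κ.re) {φ : E d → ℂ} (hm : Measurable φ) (s : ℕ)
    (hφ : Integrable φ) (hφs : Integrable (fun ξ => (1 + ‖ξ‖ ^ s) * ‖φ ξ‖)) :
    Integrable (fun η => (1 + ‖η‖ ^ s) * ‖dens κ φ η‖) ∧
      ∫ η, (1 + ‖η‖ ^ s) * ‖dens κ φ η‖ ≤ (∫ ξ, (1 + ‖ξ‖ ^ s) * ‖φ ξ‖) / κ.re := by
  have hgm : Measurable (fun x : E d => (1 + ‖x‖ ^ s) * ‖φ x‖) :=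
    (Continuous.measurable (by fun_prop)).mul hm.norm
  have hD := integrable_Dom hκ hgm hφs fun x => by positivity
  have hle := weight_dens_le hκ hm s hφs
  have hI : Integrable (fun η : E d => ∫ t in Ioi (0 : ℝ),
      Dom κ.re (fun x => (1 + ‖x‖ ^ s) * ‖φ x‖) (t, η)) := hD.integral_prod_right
  have hi : Integrable (fun η : E d => (1 + ‖η‖ ^ s) * ‖dens κ φ η‖) := by
    refine hI.mono' ?_ ?_
    · refine AEStronglyMeasurable.mul ?_ (integrable_dens hκ hm hφ).1.norm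
      exact Continuous.aestronglyMeasurable (by fun_prop)
    · filter_upwards [hle] with η hη
      rw [Real.norm_of_nonneg (by positivity)]
      exact hη
  refine ⟨hi, ?_⟩
  rw [← integral_Dom hκ hgm hφs fun x => by positivity]
  exact integral_mono_ae hi hI hle

theorem fourierInv_dens {κ : ℂ} (hκ : 0 < κ.re) {φ : E d → ℂ} (hm : Measurable φ)
    (hφ : Integrable φ) (y : E d) : 𝓕⁻ (dens κ φ) y = res κ φ y := by
  have hPhi := integrable_Phi hκ hm hφ
  have h1 : Integrable (fun p : ℝ × E d =>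
      cexp (((2 * π * inner ℝ p.2 y : ℝ) : ℂ) * I) * Phi κ φ p) (pm d) := by
    refine hPhi.bdd_mul (c := 1) ?_ ?_
    · exact Continuous.aestronglyMeasurable (by fun_prop)
    · exact Filter.Eventually.of_forall fun p => (Complex.norm_exp_ofReal_mul_I _).le
  have h2 := integrable_osc (continuous_zet (d := d)).aestronglyMeasurable
    (integrable_ker hκ hm hφ) y
  rw [Real.fourierInv_eq', res, osc, integral_prod _ h2]
  have e1 : ∫ η, cexp (((2 * π * inner ℝ η y : ℝ) : ℂ) * I) • dens κ φ η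
      = ∫ t in Ioi (0 : ℝ), ∫ η, cexp (((2 * π * inner ℝ η y : ℝ) : ℂ) * I) * Phi κ φ (t, η) := by
    rw [← integral_prod _ h1, integral_prod_symm _ h1]
    refine integral_congr_ae (Filter.Eventually.of_forall fun η => ?_)
    simp only [dens, smul_eq_mul]
    rw [integral_const_mul]
  rw [e1]
  refine integral_congr_ae (Filter.Eventually.of_forall fun t => ?_)
  simp only
  rw [← integral_dil (fun ξ => cexp (((inner ℝ (zet (t, ξ)) y : ℝ) : ℂ) * I) * ker κ φ (t, ξ))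
    (Real.exp_pos (t / 2))]
  refine integral_congr_ae (Filter.Eventually.of_forall fun η => ?_)
  simp only
  have hz : zet (t, Real.exp (t / 2) • η) = (2 * π) • η := by
    rw [zet, smul_smul]
    congr 1
    rw [mul_assoc, ← Real.exp_add]
    simp
  rw [hz, real_inner_smul_left, Phi]
  simp only [Complex.real_smul]
  ring

/-- **X3a**: the resolvent of the free self-similar flow on Wiener densities. -/
theorem resolvent {κ : ℂ} (hκ : 0 < κ.re) {s : ℕ} (hs : 2 ≤ s) {φ : E d → ℂ} (hφ : Integrable φ)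
    (hφs : Integrable (fun ξ => (1 + ‖ξ‖ ^ s) * ‖φ ξ‖)) :
    ∃ ψ : E d → ℂ, Integrable ψ ∧ Integrable (fun ξ => (1 + ‖ξ‖ ^ s) * ‖ψ ξ‖) ∧
      ∫ ξ, (1 + ‖ξ‖ ^ s) * ‖ψ ξ‖ ≤ (∫ ξ, (1 + ‖ξ‖ ^ s) * ‖φ ξ‖) / κ.re ∧
      ContDiff ℝ s (𝓕⁻ ψ) ∧
      ∀ y, κ * 𝓕⁻ ψ y - (I * lap (𝓕⁻ ψ) y - (1 / 2) * eul (𝓕⁻ ψ) y) = 𝓕⁻ φ y := by
  set φ' : E d → ℂ := hφ.1.mk φ with hφ'
  have hae : φ =ᵐ[volume] φ' := hφ.1.ae_eq_mk
  have hm : Measurable φ' := hφ.1.stronglyMeasurable_mk.measurable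
  have hi : Integrable φ' := hφ.congr hae
  have hae2 : (fun ξ => (1 + ‖ξ‖ ^ s) * ‖φ ξ‖) =ᵐ[volume] fun ξ => (1 + ‖ξ‖ ^ s) * ‖φ' ξ‖ := by
    filter_upwards [hae] with ξ hξ
    rw [hξ]
  have his : Integrable (fun ξ => (1 + ‖ξ‖ ^ s) * ‖φ' ξ‖) := hφs.congr hae2
  have hF : 𝓕⁻ (dens κ φ') = res κ φ' := funext fun y => fourierInv_dens hκ hm hi y
  obtain ⟨h1, h2⟩ := integrable_weight_dens hκ hm s hi his
  refine ⟨dens κ φ', integrable_dens hκ hm hi, h1, ?_, ?_, ?_⟩
  · rw [integral_congr_ae hae2]; exact h2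
  · rw [hF]; exact contDiff_res hκ hm his
  · intro y
    rw [hF, res_eqn hκ hm hs hi his y]
    exact (Real.fourierInv_congr_ae hae y).symm

open Vale.Agent.P139.H201 in
/-- **X3a**, in terms of `WienerRep`. -/
theorem resolvent_wiener {κ : ℂ} (hκ : 0 < κ.re) {s : ℕ} (hs : 2 ≤ s) {h : E d → ℂ} {C : ℝ}
    (hh : WienerRep s h C) :
    ∃ u : E d → ℂ, WienerRep s u (C / κ.re) ∧ ContDiff ℝ s u ∧
      ∀ y, κ * u y - (I * lap u y - (1 / 2) * eul u y) = h y := by
  obtain ⟨φ, h1, h2, h3, h4⟩ := hh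
  obtain ⟨ψ, g1, g2, g3, g4, g5⟩ := resolvent hκ hs h1 h2
  refine ⟨𝓕⁻ ψ, ⟨ψ, g1, g2, fun x => rfl, g3.trans ?_⟩, g4, fun y => ?_⟩
  · gcongr
  · rw [g5, h3]

end Vale.Agent.P139.H940
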