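import Vale.Agent.P139.H940.Wie
import Vale.Agent.P139.H741.XUniq
import Vale.Agent.P139.BU.ModEC

/-!
# P139 / H940 : a Wiener solution of the resolvent equation obeys the resolvent bound (X3a + X3b)
-/

open MeasureTheory Complex Set FourierTransform Filter Topology
open scoped ContDiff Real

namespace Vale.Agent.P139.H940

open Vale.Agent.P139.BU Vale.Agent.P139.H201

variable {d : ℕ}

theorem eul_add2 {f g : E d → ℂ} (hf : ContDiff ℝ 2 f) (hg : ContDiff ℝ 2 g) (x : E d) :
    eul (fun y => f y + g y) x = eul f x + eul g x :=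
  fderiv_add2 hf hg x x

theorem eul_cmul2 (c : ℂ) {f : E d → ℂ} (hf : ContDiff ℝ 2 f) (x : E d) :
    eul (fun y => c * f y) x = c * eul f x :=
  fderiv_cmul2 c hf x x

/-- two Wiener solutions of the resolvent equation with the same right side coincide -/
theorem resolvent_unique {κ : ℂ} (hκ : 0 < κ.re) {f u h : E d → ℂ} {C C' : ℝ}
    (hf : WienerRep 2 f C) (hu : WienerRep 2 u C')
    (hfe : ∀ y, κ * f y - (I * lap f y - (1 / 2) * eul f y) = h y)
    (hue : ∀ y, κ * u y - (I * lap u y - (1 / 2) * eul u y) = h y) (y : E d) : f y = u y := by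
  have hf2 : ContDiff ℝ 2 f := wr_contDiff hf
  have hu2 : ContDiff ℝ 2 u := wr_contDiff hu
  have hn2 : ContDiff ℝ 2 (fun y => (-1 : ℂ) * u y) := contDiff_const.mul hu2
  have hv := hf.add (wr_const_mul hu (-1))
  obtain ⟨φ, h1, h2, h3, h4⟩ := hv
  have hveq : (fun y => f y + (-1) * u y) = 𝓕⁻ φ := funext h3
  have hm2 := moment_integrable (k := 2) le_rfl h1 h2
  have key := Vale.Agent.P139.H741.free_unique h1 hm2 hκ (fun z => ?_) y
  · have := h3 y
    rw [key] at this
    linear_combination this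
  · rw [← hveq]
    beta_reduce
    rw [lap_add2 hf2 hn2, lap_cmul2 _ hu2, eul_add2 hf2 hn2, eul_cmul2 _ hu2]
    linear_combination hfe z - hue z

/-- **X3**: a Wiener solution of `κ f - L00 f = h` satisfies `|f|_s ≤ |h|_s / Re κ`. -/
theorem resolvent_bound {κ : ℂ} (hκ : 0 < κ.re) {s : ℕ} (hs : 2 ≤ s) {f h : E d → ℂ} {C C' : ℝ}
    (hf : WienerRep 2 f C') (hh : WienerRep s h C)
    (hfe : ∀ y, κ * f y - (I * lap f y - (1 / 2) * eul f y) = h y) :
    WienerRep s f (C / κ.re) := by
  obtain ⟨u, hu, hu2, hue⟩ := resolvent_wiener hκ hs hh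
  exact wr_congr hu fun y => resolvent_unique hκ hf (wr_lower hs hu) hfe hue y

theorem eul_conj (f : E d → ℂ) (x : E d) :
    eul (fun y => starRingEnd ℂ (f y)) x = starRingEnd ℂ (eul f x) :=
  fderiv_conj' x x

theorem pd_conj (j : Fin d) (f : E d → ℂ) :
    pd j (fun y => starRingEnd ℂ (f y)) = fun x => starRingEnd ℂ (pd j f x) :=
  funext fun x => fderiv_conj' x _

theorem lap_conj (f : E d → ℂ) (x : E d) :
    lap (fun y => starRingEnd ℂ (f y)) x = starRingEnd ℂ (lap f x) := by
  simp only [lap, pd_conj, map_sum]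

/-- mirror version for the second component: `κ g + i Δ g + (1/2) y·∇ g = h`. -/
theorem resolvent_bound_conj {κ : ℂ} (hκ : 0 < κ.re) {s : ℕ} (hs : 2 ≤ s) {g h : E d → ℂ}
    {C C' : ℝ} (hg : WienerRep 2 g C') (hh : WienerRep s h C)
    (hge : ∀ y, κ * g y - (-(I * lap g y) - (1 / 2) * eul g y) = h y) :
    WienerRep s g (C / κ.re) := by
  have hκ' : 0 < (starRingEnd ℂ κ).re := by simpa using hκ
  have := resolvent_bound hκ' hs (wr_conj hg) (wr_conj hh) (fun y => by
    rw [lap_conj, eul_conj, ← hge y]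
    simp only [map_sub, map_mul, map_neg, Complex.conj_I, map_div₀, map_one, map_ofNat]
    ring)
  have h2 := wr_conj this
  simp only [Complex.conj_conj, Complex.conj_re] at h2
  exact h2

end Vale.Agent.P139.H940
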