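import Vale.Agent.P139.BU.Core

/-!
# P139 / H940 : oscillatory superpositions

`osc ζ ψ μ y = ∫ e^{i⟨ζ(p),y⟩} ψ(p) dμ(p)` and its derivatives (`pd`, `lap`, `eul`).
-/

open MeasureTheory Complex Set
open scoped ContDiff

namespace Vale.Agent.P139.H940

open Vale.Agent.P139.BU

variable {d : ℕ} {Ω : Type*} [MeasurableSpace Ω] {μ : Measure Ω}

/-- `∫ e^{i⟨ζ(p),y⟩} ψ(p) dμ(p)` -/
noncomputable def osc (μ : Measure Ω) (ζ : Ω → E d) (ψ : Ω → ℂ) (y : E d) : ℂ :=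
  ∫ p, cexp (((inner ℝ (ζ p) y : ℝ) : ℂ) * I) * ψ p ∂μ

theorem norm_char (ζ y : E d) : ‖cexp (((inner ℝ ζ y : ℝ) : ℂ) * I)‖ = 1 :=
  Complex.norm_exp_ofReal_mul_I _

theorem aesm_char {ζ : Ω → E d} (hζ : AEStronglyMeasurable ζ μ) (y : E d) :
    AEStronglyMeasurable (fun p => cexp (((inner ℝ (ζ p) y : ℝ) : ℂ) * I)) μ := by
  have h1 : AEStronglyMeasurable (fun p => (inner ℝ (ζ p) y : ℝ)) μ :=
    hζ.inner aestronglyMeasurable_const
  have h2 : Continuous fun t : ℝ => cexp ((t : ℂ) * I) := by fun_prop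
  exact h2.comp_aestronglyMeasurable h1

theorem integrable_osc {ζ : Ω → E d} (hζ : AEStronglyMeasurable ζ μ) {ψ : Ω → ℂ}
    (hψ : Integrable ψ μ) (y : E d) :
    Integrable (fun p => cexp (((inner ℝ (ζ p) y : ℝ) : ℂ) * I) * ψ p) μ := by
  refine hψ.bdd_mul (c := 1) (aesm_char hζ y) ?_
  exact Filter.Eventually.of_forall fun p => (norm_char _ _).le

theorem norm_osc_le (ζ : Ω → E d) (ψ : Ω → ℂ) (y : E d) :
    ‖osc μ ζ ψ y‖ ≤ ∫ p, ‖ψ p‖ ∂μ := by
  refine (norm_integral_le_integral_norm _).trans (le_of_eq ?_)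
  refine integral_congr_ae (Filter.Eventually.of_forall fun p => ?_)
  simp only [norm_mul, norm_char, one_mul]

/-- the derivative of the integrand -/
noncomputable def oscD (ζ : E d) (z : ℂ) (y : E d) : E d →L[ℝ] ℂ :=
  (cexp (((inner ℝ ζ y : ℝ) : ℂ) * I) * (I * z)) •
    (Complex.ofRealCLM.comp (innerSL ℝ ζ))

theorem oscD_apply (ζ : E d) (z : ℂ) (y v : E d) :
    oscD ζ z y v = cexp (((inner ℝ ζ y : ℝ) : ℂ) * I) * (I * (inner ℝ ζ v : ℝ) * z) := by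
  simp only [oscD, _root_.smul_apply, ContinuousLinearMap.comp_apply,
    innerSL_apply_apply, Complex.ofRealCLM_apply, smul_eq_mul]
  ring

theorem norm_oscD_le (ζ : E d) (z : ℂ) (y : E d) : ‖oscD ζ z y‖ ≤ ‖ζ‖ * ‖z‖ := by
  refine ContinuousLinearMap.opNorm_le_bound _ (by positivity) fun v => ?_
  rw [oscD_apply, norm_mul, norm_char, one_mul, norm_mul, norm_mul, Complex.norm_I, one_mul,
    Complex.norm_real]
  have := norm_inner_le_norm (𝕜 := ℝ) ζ v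
  calc ‖inner ℝ ζ v‖ * ‖z‖ ≤ (‖ζ‖ * ‖v‖) * ‖z‖ := by gcongr
    _ = _ := by ring

theorem hasFDerivAt_kernel (ζ : E d) (z : ℂ) (y : E d) :
    HasFDerivAt (fun y : E d => cexp (((inner ℝ ζ y : ℝ) : ℂ) * I) * z) (oscD ζ z y) y := by
  have h1 : HasFDerivAt (fun y : E d => ((inner ℝ ζ y : ℝ) : ℂ))
      (Complex.ofRealCLM.comp (innerSL ℝ ζ)) y :=
    (Complex.ofRealCLM.comp (innerSL ℝ ζ)).hasFDerivAt
  have h2 := ((h1.mul_const I).cexp).mul_const z
  refine h2.congr_fderiv ?_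
  ext v
  simp only [_root_.smul_apply, ContinuousLinearMap.comp_apply,
    innerSL_apply_apply, Complex.ofRealCLM_apply, smul_eq_mul, oscD_apply]
  ring

theorem aesm_oscD {ζ : Ω → E d} (hζ : AEStronglyMeasurable ζ μ) {ψ : Ω → ℂ}
    (hψ : AEStronglyMeasurable ψ μ) (y : E d) :
    AEStronglyMeasurable (fun p => oscD (ζ p) (ψ p) y) μ := by
  have h1 : AEStronglyMeasurable (fun p => (innerSL ℝ (ζ p) : E d →L[ℝ] ℝ)) μ :=
    (innerSL ℝ).continuous.comp_aestronglyMeasurable hζ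
  have h2 : AEStronglyMeasurable
      (fun p => (Complex.ofRealCLM.comp (innerSL ℝ (ζ p)) : E d →L[ℝ] ℂ)) μ := by
    have hc : Continuous fun L : E d →L[ℝ] ℝ => Complex.ofRealCLM.comp L := by fun_prop
    exact hc.comp_aestronglyMeasurable h1
  exact ((aesm_char hζ y).mul (hψ.const_mul I)).smul h2

theorem hasFDerivAt_osc {ζ : Ω → E d} (hζ : AEStronglyMeasurable ζ μ) {ψ : Ω → ℂ}
    (hψ : Integrable ψ μ) (hψ1 : Integrable (fun p => ‖ζ p‖ * ‖ψ p‖) μ) (y : E d) :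
    HasFDerivAt (osc μ ζ ψ) (∫ p, oscD (ζ p) (ψ p) y ∂μ) y := by
  refine hasFDerivAt_integral_of_dominated_of_fderiv_le (bound := fun p => ‖ζ p‖ * ‖ψ p‖)
    (F' := fun y p => oscD (ζ p) (ψ p) y) (s := univ) Filter.univ_mem
    (Filter.Eventually.of_forall fun y => (integrable_osc hζ hψ y).aestronglyMeasurable)
    (integrable_osc hζ hψ y) (aesm_oscD hζ hψ.1 y)
    (Filter.Eventually.of_forall fun p y _ => norm_oscD_le _ _ _) hψ1
    (Filter.Eventually.of_forall fun p y _ => hasFDerivAt_kernel _ _ _)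

theorem integrable_oscD {ζ : Ω → E d} (hζ : AEStronglyMeasurable ζ μ) {ψ : Ω → ℂ}
    (hψ : Integrable ψ μ) (hψ1 : Integrable (fun p => ‖ζ p‖ * ‖ψ p‖) μ) (y : E d) :
    Integrable (fun p => oscD (ζ p) (ψ p) y) μ :=
  Integrable.mono' hψ1 (aesm_oscD hζ hψ.1 y)
    (Filter.Eventually.of_forall fun _ => norm_oscD_le _ _ _)

theorem fderiv_osc_apply {ζ : Ω → E d} (hζ : AEStronglyMeasurable ζ μ) {ψ : Ω → ℂ}
    (hψ : Integrable ψ μ) (hψ1 : Integrable (fun p => ‖ζ p‖ * ‖ψ p‖) μ) (y v : E d) :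
    fderiv ℝ (osc μ ζ ψ) y v = osc μ ζ (fun p => I * (inner ℝ (ζ p) v : ℝ) * ψ p) y := by
  rw [(hasFDerivAt_osc hζ hψ hψ1 y).fderiv,
    ContinuousLinearMap.integral_apply (integrable_oscD hζ hψ hψ1 y)]
  simp only [oscD_apply, osc]

theorem aesm_inner_mul {ζ : Ω → E d} (hζ : AEStronglyMeasurable ζ μ) {ψ : Ω → ℂ}
    (hψ : AEStronglyMeasurable ψ μ) (v : E d) :
    AEStronglyMeasurable (fun p => I * (inner ℝ (ζ p) v : ℝ) * ψ p) μ := by
  have h1 : AEStronglyMeasurable (fun p => ((inner ℝ (ζ p) v : ℝ) : ℂ)) μ :=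
    Complex.continuous_ofReal.comp_aestronglyMeasurable (hζ.inner aestronglyMeasurable_const)
  exact (h1.const_mul I).mul hψ

theorem norm_inner_mul_le (ζ v : E d) (z : ℂ) :
    ‖I * (inner ℝ ζ v : ℝ) * z‖ ≤ ‖v‖ * (‖ζ‖ * ‖z‖) := by
  rw [norm_mul, norm_mul, Complex.norm_I, one_mul, Complex.norm_real]
  have := norm_inner_le_norm (𝕜 := ℝ) ζ v
  calc ‖inner ℝ ζ v‖ * ‖z‖ ≤ (‖ζ‖ * ‖v‖) * ‖z‖ := by gcongr
    _ = _ := by ring

/-- weighted integrability is inherited by the symbol of the derivative -/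
theorem integrable_pow_inner_mul {ζ : Ω → E d} (hζ : AEStronglyMeasurable ζ μ) {ψ : Ω → ℂ}
    (hψ : AEStronglyMeasurable ψ μ) (k : ℕ)
    (hk : Integrable (fun p => ‖ζ p‖ ^ (k + 1) * ‖ψ p‖) μ) (v : E d) :
    Integrable (fun p => ‖ζ p‖ ^ k * ‖I * (inner ℝ (ζ p) v : ℝ) * ψ p‖) μ := by
  refine Integrable.mono' (hk.const_mul ‖v‖) ((hζ.norm.pow k).mul
    (aesm_inner_mul hζ hψ v).norm) (Filter.Eventually.of_forall fun p => ?_)
  rw [Real.norm_of_nonneg (by positivity)]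
  calc ‖ζ p‖ ^ k * ‖I * (inner ℝ (ζ p) v : ℝ) * ψ p‖
      ≤ ‖ζ p‖ ^ k * (‖v‖ * (‖ζ p‖ * ‖ψ p‖)) := by
        gcongr; exact norm_inner_mul_le _ _ _
    _ = _ := by ring

theorem contDiff_osc {ζ : Ω → E d} (hζ : AEStronglyMeasurable ζ μ) (n : ℕ) {ψ : Ω → ℂ}
    (hψ : AEStronglyMeasurable ψ μ)
    (hk : ∀ k ≤ n, Integrable (fun p => ‖ζ p‖ ^ k * ‖ψ p‖) μ) :
    ContDiff ℝ n (osc μ ζ ψ) := by
  have hint : ∀ {ψ : Ω → ℂ}, AEStronglyMeasurable ψ μ →
      Integrable (fun p => ‖ζ p‖ ^ 0 * ‖ψ p‖) μ → Integrable ψ μ := by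
    intro ψ h h0
    simp only [pow_zero, one_mul] at h0
    exact (integrable_norm_iff h).1 h0
  induction n generalizing ψ with
  | zero =>
    rw [Nat.cast_zero, contDiff_zero]
    refine continuous_of_dominated (F := fun y p => cexp (((inner ℝ (ζ p) y : ℝ) : ℂ) * I) * ψ p)
      (bound := fun p => ‖ψ p‖) (fun y => (integrable_osc hζ (hint hψ (hk 0 le_rfl)) y).1)
      (fun y => Filter.Eventually.of_forall fun p => ?_) (hint hψ (hk 0 le_rfl)).norm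
      (Filter.Eventually.of_forall fun p => ?_)
    · rw [norm_mul, norm_char, one_mul]
    · fun_prop
  | succ n ih =>
    have h0 := hint hψ (hk 0 (Nat.zero_le _))
    have h1 : Integrable (fun p => ‖ζ p‖ * ‖ψ p‖) μ := by
      have := hk 1 (Nat.le_add_left 1 n)
      simpa only [pow_one] using this
    rw [Nat.cast_add, Nat.cast_one, contDiff_succ_iff_fderiv_apply]
    refine ⟨fun y => (hasFDerivAt_osc hζ h0 h1 y).differentiableAt, ?_, fun v => ?_⟩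
    · intro h
      exact absurd h (by exact WithTop.natCast_ne_top n)
    · have : (fun y => fderiv ℝ (osc μ ζ ψ) y v)
          = osc μ ζ (fun p => I * (inner ℝ (ζ p) v : ℝ) * ψ p) := by
        funext y; exact fderiv_osc_apply hζ h0 h1 y v
      rw [this]
      refine ih (aesm_inner_mul hζ hψ v) fun k hkn => ?_
      exact integrable_pow_inner_mul hζ hψ k (hk (k + 1) (by omega)) v

theorem eul_osc {ζ : Ω → E d} (hζ : AEStronglyMeasurable ζ μ) {ψ : Ω → ℂ}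
    (hψ : Integrable ψ μ) (hψ1 : Integrable (fun p => ‖ζ p‖ * ‖ψ p‖) μ) (y : E d) :
    eul (osc μ ζ ψ) y = osc μ ζ (fun p => I * (inner ℝ (ζ p) y : ℝ) * ψ p) y :=
  fderiv_osc_apply hζ hψ hψ1 y y

theorem pd_osc {ζ : Ω → E d} (hζ : AEStronglyMeasurable ζ μ) {ψ : Ω → ℂ}
    (hψ : Integrable ψ μ) (hψ1 : Integrable (fun p => ‖ζ p‖ * ‖ψ p‖) μ) (j : Fin d) :
    pd j (osc μ ζ ψ) = osc μ ζ (fun p => I * ((ζ p j : ℝ) : ℂ) * ψ p) := by
  funext y
  rw [pd, fderiv_osc_apply hζ hψ hψ1]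
  congr 1
  funext p
  congr 3
  rw [EuclideanSpace.inner_single_right]
  simp

theorem lap_osc {ζ : Ω → E d} (hζ : AEStronglyMeasurable ζ μ) {ψ : Ω → ℂ}
    (hψ : Integrable ψ μ) (hψ1 : Integrable (fun p => ‖ζ p‖ * ‖ψ p‖) μ)
    (hψ2 : Integrable (fun p => ‖ζ p‖ ^ 2 * ‖ψ p‖) μ) (y : E d) :
    lap (osc μ ζ ψ) y = osc μ ζ (fun p => -((‖ζ p‖ ^ 2 : ℝ) : ℂ) * ψ p) y := by
  have hsj : ∀ j, (fun p => I * ((ζ p j : ℝ) : ℂ) * ψ p)
      = fun p => I * (inner ℝ (ζ p) (EuclideanSpace.single j (1 : ℝ)) : ℝ) * ψ p := by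
    intro j; funext p
    rw [EuclideanSpace.inner_single_right]
    simp
  have hj1 : ∀ j, Integrable (fun p => I * ((ζ p j : ℝ) : ℂ) * ψ p) μ := by
    intro j
    rw [hsj]
    have := integrable_pow_inner_mul hζ hψ.1 0 (by simpa using hψ1)
      (EuclideanSpace.single j (1 : ℝ))
    simp only [pow_zero, one_mul] at this
    exact (integrable_norm_iff (aesm_inner_mul hζ hψ.1 _)).1 this
  have hj2 : ∀ j, Integrable (fun p => ‖ζ p‖ * ‖I * ((ζ p j : ℝ) : ℂ) * ψ p‖) μ := by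
    intro j
    have := integrable_pow_inner_mul hζ hψ.1 1 (by simpa using hψ2)
      (EuclideanSpace.single j (1 : ℝ))
    simp only [pow_one] at this
    refine this.congr (Filter.Eventually.of_forall fun p => ?_)
    have := congrFun (hsj j) p
    simp only at this ⊢
    rw [this]
  have hkey : ∀ j, pd j (pd j (osc μ ζ ψ)) y
      = osc μ ζ (fun p => I * ((ζ p j : ℝ) : ℂ) * (I * ((ζ p j : ℝ) : ℂ) * ψ p)) y := by
    intro j
    rw [pd_osc hζ hψ hψ1 j, pd_osc hζ (hj1 j) (hj2 j) j]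
  have hj3 : ∀ j, Integrable
      (fun p => I * ((ζ p j : ℝ) : ℂ) * (I * ((ζ p j : ℝ) : ℂ) * ψ p)) μ := by
    intro j
    have h := integrable_pow_inner_mul hζ (hj1 j).1 0 (by simpa using hj2 j)
      (EuclideanSpace.single j (1 : ℝ))
    simp only [pow_zero, one_mul] at h
    have h' := (integrable_norm_iff (aesm_inner_mul hζ (hj1 j).1 _)).1 h
    refine h'.congr (Filter.Eventually.of_forall fun p => ?_)
    simp only
    rw [EuclideanSpace.inner_single_right]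
    simp
  simp only [lap, hkey]
  simp only [osc]
  rw [← integral_finsetSum _ fun j _ => integrable_osc hζ (hj3 j) y]
  refine integral_congr_ae (Filter.Eventually.of_forall fun p => ?_)
  simp only
  rw [← Finset.mul_sum]
  congr 1
  have : ((‖ζ p‖ ^ 2 : ℝ) : ℂ) = ∑ j, ((ζ p j : ℝ) : ℂ) ^ 2 := by
    rw [EuclideanSpace.norm_sq_eq]
    push_cast
    refine Finset.sum_congr rfl fun j _ => ?_
    rw [Real.norm_eq_abs]
    norm_cast
    rw [sq_abs]
  rw [this, ← Finset.sum_neg_distrib, Finset.sum_mul]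
  refine Finset.sum_congr rfl fun j _ => ?_
  linear_combination (((ζ p j : ℝ) : ℂ) ^ 2 * ψ p) * Complex.I_sq

end Vale.Agent.P139.H940
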