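import Vale.Agent.P139.H940.Osc
import Vale.Agent.P139.H201.Wiener1

/-!
# P139 / H940 : resolvent of the free self-similar flow on Wiener functions (X3a)

`L00 u = i Δ u - (1/2) y·∇ u`; for `Re κ > 0` and `h` in the Wiener space of order `s ≥ 2` there is
`u` of norm at most `|h| / Re κ` with `κ u - L00 u = h` pointwise.
-/

open MeasureTheory Complex Set FourierTransform Filter Topology
open scoped ContDiff Real

namespace Vale.Agent.P139.H940

open Vale.Agent.P139.BU

variable {d : ℕ}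

/-- the product measure on `(0,∞) × E`. -/
noncomputable abbrev pm (d : ℕ) : Measure (ℝ × E d) := (volume.restrict (Ioi (0 : ℝ))).prod volume

/-- the frequency map. -/
noncomputable def zet (p : ℝ × E d) : E d := (2 * π * Real.exp (-(p.1 / 2))) • p.2

/-- the kernel. -/
noncomputable def ker (κ : ℂ) (φ : E d → ℂ) (p : ℝ × E d) : ℂ :=
  cexp (-(κ * (p.1 : ℂ))) *
    cexp (((-(4 * π ^ 2 * (1 - Real.exp (-p.1)) * ‖p.2‖ ^ 2) : ℝ) : ℂ) * I) * φ p.2

theorem continuous_zet : Continuous (zet : ℝ × E d → E d) := by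
  unfold zet; fun_prop

theorem norm_zet (p : ℝ × E d) : ‖zet p‖ = 2 * π * Real.exp (-(p.1 / 2)) * ‖p.2‖ := by
  rw [zet, norm_smul, Real.norm_of_nonneg (by positivity)]

theorem norm_ker (κ : ℂ) (φ : E d → ℂ) (p : ℝ × E d) :
    ‖ker κ φ p‖ = Real.exp (-κ.re * p.1) * ‖φ p.2‖ := by
  rw [ker, norm_mul, norm_mul, Complex.norm_exp_ofReal_mul_I, mul_one, Complex.norm_exp]
  congr 2
  simp

theorem measurable_ker {κ : ℂ} {φ : E d → ℂ} (hφ : Measurable φ) : Measurable (ker κ φ) := by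
  unfold ker
  refine Measurable.mul (Measurable.mul ?_ ?_) (hφ.comp measurable_snd)
  · exact Continuous.measurable (by fun_prop)
  · exact Continuous.measurable (by fun_prop)

theorem integrable_exp {b : ℝ} (hb : 0 < b) :
    Integrable (fun t : ℝ => Real.exp (-b * t)) (volume.restrict (Ioi (0 : ℝ))) :=
  exp_neg_integrableOn_Ioi 0 hb

theorem integral_exp' {b : ℝ} (hb : 0 < b) :
    ∫ t in Ioi (0 : ℝ), Real.exp (-b * t) = 1 / b := by
  rw [integral_exp_mul_Ioi (by linarith) 0]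
  simp

/-- dominated integrability on the product space -/
theorem integrable_of_le {b : ℝ} (hb : 0 < b) {G : ℝ × E d → ℂ} (hG : AEStronglyMeasurable G (pm d))
    {g : E d → ℝ} (hg : Integrable g) (hle : ∀ p : ℝ × E d, ‖G p‖ ≤ Real.exp (-b * p.1) * g p.2) :
    Integrable G (pm d) :=
  Integrable.mono' ((integrable_exp hb).mul_prod hg) hG (Filter.Eventually.of_forall hle)

theorem integrable_ker {κ : ℂ} (hκ : 0 < κ.re) {φ : E d → ℂ} (hm : Measurable φ)
    (hφ : Integrable φ) : Integrable (ker κ φ) (pm d) :=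
  integrable_of_le hκ (measurable_ker hm).aestronglyMeasurable hφ.norm
    fun p => (norm_ker κ φ p).le

theorem pow_le_one_add_pow {x : ℝ} (hx : 0 ≤ x) {k s : ℕ} (hks : k ≤ s) : x ^ k ≤ 1 + x ^ s := by
  rcases le_total x 1 with h | h
  · have h1 : x ^ k ≤ 1 := pow_le_one₀ hx h
    have h2 : 0 ≤ x ^ s := pow_nonneg hx s
    linarith
  · have := pow_le_pow_right₀ h hks
    linarith

theorem integrable_pow_ker {κ : ℂ} (hκ : 0 < κ.re) {φ : E d → ℂ} (hm : Measurable φ) {s k : ℕ}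
    (hks : k ≤ s) (hφs : Integrable (fun ξ => (1 + ‖ξ‖ ^ s) * ‖φ ξ‖)) :
    Integrable (fun p => ‖zet p‖ ^ k * ‖ker κ φ p‖) (pm d) := by
  have h0 : AEStronglyMeasurable (fun p : ℝ × E d => ‖zet p‖ ^ k * ‖ker κ φ p‖) (pm d) := by
    refine AEStronglyMeasurable.mul ?_ (measurable_ker hm).aestronglyMeasurable.norm
    exact ((continuous_zet.norm).pow k).aestronglyMeasurable
  have hexp1 : ∀ᵐ p : ℝ × E d ∂(pm d), 0 < p.1 := by
    have h1 : ∀ᵐ t : ℝ ∂(volume.restrict (Ioi (0 : ℝ))), 0 < t := by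
      filter_upwards [self_mem_ae_restrict measurableSet_Ioi] with t ht using ht
    exact (Measure.quasiMeasurePreserving_fst (μ := volume.restrict (Ioi (0 : ℝ)))
      (ν := (volume : Measure (E d)))).ae h1
  refine Integrable.mono' (((integrable_exp hκ).mul_prod hφs).const_mul ((2 * π) ^ k)) h0 ?_
  filter_upwards [hexp1] with p hp
  rw [Real.norm_of_nonneg (by positivity), norm_zet, norm_ker]
  have h1 : Real.exp (-(p.1 / 2)) ≤ 1 := Real.exp_le_one_iff.2 (by linarith)
  calc (2 * π * Real.exp (-(p.1 / 2)) * ‖p.2‖) ^ k * (Real.exp (-κ.re * p.1) * ‖φ p.2‖)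
      ≤ (2 * π * 1 * ‖p.2‖) ^ k * (Real.exp (-κ.re * p.1) * ‖φ p.2‖) := by gcongr
    _ = (2 * π) ^ k * (Real.exp (-κ.re * p.1) * (‖p.2‖ ^ k * ‖φ p.2‖)) := by
        rw [mul_one, mul_pow]; ring
    _ ≤ (2 * π) ^ k * (Real.exp (-κ.re * p.1) * ((1 + ‖p.2‖ ^ s) * ‖φ p.2‖)) := by
        gcongr
        exact pow_le_one_add_pow (norm_nonneg _) hks

/-- the exponent along the characteristic -/
noncomputable def ex (κ : ℂ) (n2 x : ℝ) (t : ℝ) : ℂ :=
  -(κ * (t : ℂ)) + ((-(4 * π ^ 2 * (1 - Real.exp (-t)) * n2) : ℝ) : ℂ) * I +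
    ((2 * π * Real.exp (-(t / 2)) * x : ℝ) : ℂ) * I

theorem hasDerivAt_ex (κ : ℂ) (n2 x t : ℝ) :
    HasDerivAt (ex κ n2 x) (-κ + ((-(4 * π ^ 2 * Real.exp (-t) * n2) : ℝ) : ℂ) * I +
      ((-(π * Real.exp (-(t / 2)) * x) : ℝ) : ℂ) * I) t := by
  have h1 : HasDerivAt (fun t : ℝ => -(κ * (t : ℂ))) (-κ) t := by
    refine (((hasDerivAt_id t).ofReal_comp.const_mul κ).neg).congr_deriv ?_
    simp
  have h2 : HasDerivAt (fun t : ℝ => -(4 * π ^ 2 * (1 - Real.exp (-t)) * n2))
      (-(4 * π ^ 2 * Real.exp (-t) * n2)) t := by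
    have h := ((hasDerivAt_neg t).exp.const_sub 1)
    have h' := (((h.const_mul (4 * π ^ 2)).mul_const n2)).neg
    refine h'.congr_deriv ?_
    ring
  have h3 : HasDerivAt (fun t : ℝ => 2 * π * Real.exp (-(t / 2)) * x)
      (-(π * Real.exp (-(t / 2)) * x)) t := by
    have h := ((((hasDerivAt_id t).div_const 2).neg.exp.const_mul (2 * π)).mul_const x)
    refine h.congr_deriv ?_
    simp only [Pi.neg_apply, id]
    ring
  exact (h1.add (h2.ofReal_comp.mul_const I)).add (h3.ofReal_comp.mul_const I)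

theorem norm_cexp_ex (κ : ℂ) (n2 x t : ℝ) : ‖cexp (ex κ n2 x t)‖ = Real.exp (-κ.re * t) := by
  rw [ex, Complex.exp_add, Complex.exp_add, norm_mul, norm_mul, Complex.norm_exp_ofReal_mul_I,
    Complex.norm_exp_ofReal_mul_I, mul_one, mul_one, Complex.norm_exp]
  congr 1
  simp

/-- the integral over the characteristic -/
theorem integral_ex {κ : ℂ} (hκ : 0 < κ.re) (n2 x : ℝ) :
    ∫ t in Ioi (0 : ℝ), (κ + ((4 * π ^ 2 * Real.exp (-t) * n2 : ℝ) : ℂ) * I +
      ((π * Real.exp (-(t / 2)) * x : ℝ) : ℂ) * I) * cexp (ex κ n2 x t)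
      = cexp (((2 * π * x : ℝ) : ℂ) * I) := by
  have hd : ∀ t ∈ Ici (0 : ℝ), HasDerivAt (fun t => -cexp (ex κ n2 x t))
      ((κ + ((4 * π ^ 2 * Real.exp (-t) * n2 : ℝ) : ℂ) * I +
      ((π * Real.exp (-(t / 2)) * x : ℝ) : ℂ) * I) * cexp (ex κ n2 x t)) t := by
    intro t _
    refine ((hasDerivAt_ex κ n2 x t).cexp).neg.congr_deriv ?_
    push_cast
    ring
  have hcont : Continuous (ex κ n2 x) := by
    unfold ex; fun_prop
  have hint : IntegrableOn (fun t : ℝ => (κ + ((4 * π ^ 2 * Real.exp (-t) * n2 : ℝ) : ℂ) * I +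
      ((π * Real.exp (-(t / 2)) * x : ℝ) : ℂ) * I) * cexp (ex κ n2 x t)) (Ioi 0) := by
    refine Integrable.mono' ((integrable_exp hκ).const_mul
      (‖κ‖ + 4 * π ^ 2 * |n2| + π * |x|)) ?_ ?_
    · refine Continuous.aestronglyMeasurable ?_
      fun_prop
    · filter_upwards [self_mem_ae_restrict measurableSet_Ioi] with t ht
      have ht : 0 < t := ht
      rw [norm_mul, norm_cexp_ex]
      gcongr
      refine (norm_add_le _ _).trans (add_le_add ((norm_add_le _ _).trans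
        (add_le_add le_rfl ?_)) ?_)
      · rw [norm_mul, Complex.norm_I, mul_one, Complex.norm_real, Real.norm_eq_abs, abs_mul,
          abs_of_pos (show 0 < 4 * π ^ 2 * Real.exp (-t) by positivity)]
        have : Real.exp (-t) ≤ 1 := Real.exp_le_one_iff.2 (by linarith)
        calc 4 * π ^ 2 * Real.exp (-t) * |n2| ≤ 4 * π ^ 2 * 1 * |n2| := by gcongr
          _ = _ := by ring
      · rw [norm_mul, Complex.norm_I, mul_one, Complex.norm_real, Real.norm_eq_abs, abs_mul,
          abs_of_pos (show 0 < π * Real.exp (-(t / 2)) by positivity)]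
        have : Real.exp (-(t / 2)) ≤ 1 := Real.exp_le_one_iff.2 (by linarith)
        calc π * Real.exp (-(t / 2)) * |x| ≤ π * 1 * |x| := by gcongr
          _ = _ := by ring
  have hlim : Tendsto (fun t => -cexp (ex κ n2 x t)) atTop (𝓝 0) := by
    rw [tendsto_zero_iff_norm_tendsto_zero]
    simp only [norm_neg, norm_cexp_ex]
    refine Real.tendsto_exp_atBot.comp ?_
    exact tendsto_id.const_mul_atTop_of_neg (by linarith)
  rw [integral_Ioi_of_hasDerivAt_of_tendsto' hd hint hlim]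
  simp [ex]

/-- the oscillatory integral of `ker` -/
noncomputable def res (κ : ℂ) (φ : E d → ℂ) : E d → ℂ := osc (pm d) zet (ker κ φ)

theorem contDiff_res {κ : ℂ} (hκ : 0 < κ.re) {φ : E d → ℂ} (hm : Measurable φ) {s : ℕ}
    (hφs : Integrable (fun ξ => (1 + ‖ξ‖ ^ s) * ‖φ ξ‖)) :
    ContDiff ℝ s (res κ φ) :=
  contDiff_osc continuous_zet.aestronglyMeasurable s (measurable_ker hm).aestronglyMeasurable
    fun _ hk => integrable_pow_ker hκ hm hk hφs

theorem res_eqn {κ : ℂ} (hκ : 0 < κ.re) {φ : E d → ℂ} (hm : Measurable φ) {s : ℕ} (hs : 2 ≤ s)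
    (hφ : Integrable φ) (hφs : Integrable (fun ξ => (1 + ‖ξ‖ ^ s) * ‖φ ξ‖)) (y : E d) :
    κ * res κ φ y - (I * lap (res κ φ) y - (1 / 2) * eul (res κ φ) y) = 𝓕⁻ φ y := by
  have hz : AEStronglyMeasurable (zet : ℝ × E d → E d) (pm d) :=
    continuous_zet.aestronglyMeasurable
  have h0 := integrable_ker hκ hm hφ
  have h1 : Integrable (fun p => ‖zet p‖ * ‖ker κ φ p‖) (pm d) := by
    have := integrable_pow_ker (k := 1) hκ hm (by omega) hφs
    simpa only [pow_one] using this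
  have h2 := integrable_pow_ker (k := 2) hκ hm hs hφs
  rw [res, lap_osc hz h0 h1 h2, eul_osc hz h0 h1]
  have i2 : Integrable (fun p => -((‖zet p‖ ^ 2 : ℝ) : ℂ) * ker κ φ p) (pm d) := by
    refine h2.mono ?_ (Filter.Eventually.of_forall fun p => ?_)
    · refine AEStronglyMeasurable.mul ?_ h0.1
      exact (Complex.continuous_ofReal.comp (continuous_zet.norm.pow 2)).neg.aestronglyMeasurable
    · rw [norm_mul, norm_neg, Complex.norm_real, norm_mul, norm_norm]
  have i1 : Integrable (fun p => I * (inner ℝ (zet p) y : ℝ) * ker κ φ p) (pm d) := by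
    refine (h1.const_mul ‖y‖).mono' (aesm_inner_mul hz h0.1 y)
      (Filter.Eventually.of_forall fun p => norm_inner_mul_le _ _ _)
  have j0 := integrable_osc hz h0 y
  have j1 := integrable_osc hz i1 y
  have j2 := integrable_osc hz i2 y
  have hsum : κ * osc (pm d) zet (ker κ φ) y
      - (I * osc (pm d) zet (fun p => -((‖zet p‖ ^ 2 : ℝ) : ℂ) * ker κ φ p) y
        - (1 / 2) * osc (pm d) zet (fun p => I * (inner ℝ (zet p) y : ℝ) * ker κ φ p) y)
      = ∫ p, (κ + ((‖zet p‖ ^ 2 : ℝ) : ℂ) * I + (1 / 2) * ((inner ℝ (zet p) y : ℝ) : ℂ) * I) *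
          (cexp (((inner ℝ (zet p) y : ℝ) : ℂ) * I) * ker κ φ p) ∂(pm d) := by
    simp only [osc]
    rw [← integral_const_mul, ← integral_const_mul, ← integral_const_mul,
      ← integral_sub (j2.const_mul _) (j1.const_mul _)]
    refine (integral_sub (j0.const_mul κ) ((j2.const_mul I).sub (j1.const_mul (1 / 2)))).symm.trans
      ?_
    refine integral_congr_ae (Filter.Eventually.of_forall fun p => ?_)
    simp only [Pi.sub_apply]
    ring
  have hI : Integrable (fun p : ℝ × E d => (κ + ((‖zet p‖ ^ 2 : ℝ) : ℂ) * I +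
      (1 / 2) * ((inner ℝ (zet p) y : ℝ) : ℂ) * I) *
          (cexp (((inner ℝ (zet p) y : ℝ) : ℂ) * I) * ker κ φ p)) (pm d) := by
    refine ((j0.const_mul κ).sub ((j2.const_mul I).sub (j1.const_mul (1 / 2)))).congr
      (Filter.Eventually.of_forall fun p => ?_)
    simp only [Pi.sub_apply]
    ring
  rw [hsum, integral_prod_symm _ hI, Real.fourierInv_eq']
  refine integral_congr_ae (Filter.Eventually.of_forall fun ξ => ?_)
  simp only
  rw [smul_eq_mul, ← integral_ex hκ (‖ξ‖ ^ 2) (inner ℝ ξ y), ← integral_mul_const]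
  refine integral_congr_ae (Filter.Eventually.of_forall fun t => ?_)
  simp only
  rw [norm_zet]
  have hin : (inner ℝ (zet (t, ξ)) y : ℝ) = 2 * π * Real.exp (-(t / 2)) * inner ℝ ξ y := by
    rw [zet, real_inner_smul_left]
  have he : Real.exp (-(t / 2)) ^ 2 = Real.exp (-t) := by
    rw [← Real.exp_nat_mul]; congr 1; push_cast; ring
  have hn : (2 * π * Real.exp (-(t / 2)) * ‖ξ‖) ^ 2 = 4 * π ^ 2 * Real.exp (-t) * ‖ξ‖ ^ 2 := by
    rw [← he]; ring
  rw [hin, hn, ker, ex, Complex.exp_add, Complex.exp_add]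
  push_cast
  ring

end Vale.Agent.P139.H940
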