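import Vale.Agent.P139.H940.Res2
import Vale.Agent.P139.H201.Wiener3

/-!
# P139 / H940 : toolbox for `WienerRep`
-/

open MeasureTheory Complex Set FourierTransform Filter Topology
open scoped ContDiff Real

namespace Vale.Agent.P139.H940

open Vale.Agent.P139.BU Vale.Agent.P139.H201

section General

variable {V : Type*} [NormedAddCommGroup V] [InnerProductSpace ℝ V] [FiniteDimensional ℝ V]
  [MeasurableSpace V] [BorelSpace V]

theorem wr_congr {s : ℕ} {f g : V → ℂ} {C : ℝ} (h : WienerRep s f C) (hfg : ∀ x, g x = f x) :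
    WienerRep s g C := by
  obtain ⟨φ, h1, h2, h3, h4⟩ := h
  exact ⟨φ, h1, h2, fun x => (hfg x).trans (h3 x), h4⟩

theorem wr_const_mul {s : ℕ} {f : V → ℂ} {C : ℝ} (h : WienerRep s f C) (c : ℂ) :
    WienerRep s (fun x => c * f x) (‖c‖ * C) := by
  obtain ⟨φ, h1, h2, h3, h4⟩ := h
  have e : (fun ξ => (1 + ‖ξ‖ ^ s) * ‖c * φ ξ‖) = fun ξ => ‖c‖ * ((1 + ‖ξ‖ ^ s) * ‖φ ξ‖) := by
    funext ξ; rw [norm_mul]; ring
  refine ⟨fun ξ => c * φ ξ, h1.const_mul c, ?_, fun x => ?_, ?_⟩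
  · rw [e]; exact h2.const_mul _
  · beta_reduce
    rw [h3, Real.fourierInv_eq', Real.fourierInv_eq', ← integral_const_mul]
    refine integral_congr_ae (Filter.Eventually.of_forall fun ξ => ?_)
    simp only [smul_eq_mul]; ring
  · rw [e, integral_const_mul]
    gcongr

theorem wr_neg {s : ℕ} {f : V → ℂ} {C : ℝ} (h : WienerRep s f C) :
    WienerRep s (fun x => - f x) C := by
  have := wr_const_mul h (-1)
  rw [norm_neg, norm_one, one_mul] at this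
  exact wr_congr this fun x => by ring

theorem wr_sub {s : ℕ} {f g : V → ℂ} {C C' : ℝ} (h : WienerRep s f C) (h' : WienerRep s g C') :
    WienerRep s (fun x => f x - g x) (C + C') :=
  wr_congr (h.add (wr_neg h')) fun x => by ring

theorem wr_zero (s : ℕ) : WienerRep s (fun _ : V => (0 : ℂ)) 0 := by
  refine ⟨fun _ => 0, integrable_zero _ _ _, ?_, fun x => ?_, ?_⟩
  · simp
  · simp [Real.fourierInv_eq']
  · simp

theorem wr_sum {ι : Type*} (S : Finset ι) {s : ℕ} {f : ι → V → ℂ} {C : ι → ℝ}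
    (h : ∀ i ∈ S, WienerRep s (f i) (C i)) :
    WienerRep s (fun x => ∑ i ∈ S, f i x) (∑ i ∈ S, C i) := by
  classical
  induction S using Finset.induction_on with
  | empty => simpa using wr_zero s
  | insert a S ha ih =>
    rw [Finset.sum_insert ha]
    refine wr_congr ((h a (Finset.mem_insert_self a S)).add
      (ih fun i hi => h i (Finset.mem_insert_of_mem hi))) fun x => ?_
    rw [Finset.sum_insert ha]

theorem wr_conj {s : ℕ} {f : V → ℂ} {C : ℝ} (h : WienerRep s f C) :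
    WienerRep s (fun x => starRingEnd ℂ (f x)) C := by
  obtain ⟨φ, h1, h2, h3, h4⟩ := h
  have hn : ∀ {g : V → ℂ}, Integrable g → Integrable fun ξ => starRingEnd ℂ (g (-ξ)) := by
    intro g hg
    have h5 : Integrable fun ξ => g (-ξ) := hg.comp_neg
    exact (integrable_norm_iff (Complex.continuous_conj.comp_aestronglyMeasurable h5.1)).1
      (by simpa using h5.norm)
  refine ⟨fun ξ => starRingEnd ℂ (φ (-ξ)), hn h1, ?_, fun x => ?_, ?_⟩
  · simp only [RCLike.norm_conj]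
    have := h2.comp_neg
    simpa using this
  · beta_reduce
    rw [h3, Real.fourierInv_eq', Real.fourierInv_eq', ← integral_conj,
      ← integral_neg_eq_self]
    refine integral_congr_ae (Filter.Eventually.of_forall fun ξ => ?_)
    simp only [smul_eq_mul, map_mul, inner_neg_left, ← Complex.exp_conj, Complex.conj_ofReal,
      Complex.conj_I]
    congr 2
    push_cast
    ring
  · simp only [RCLike.norm_conj]
    rw [← integral_neg_eq_self]
    simpa using h4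

theorem wr_lower {s k : ℕ} (hks : k ≤ s) {f : V → ℂ} {C : ℝ} (h : WienerRep s f C) :
    WienerRep k f (2 * C) := by
  obtain ⟨φ, h1, h2, h3, h4⟩ := h
  have hle : ∀ ξ : V, (1 + ‖ξ‖ ^ k) * ‖φ ξ‖ ≤ 2 * ((1 + ‖ξ‖ ^ s) * ‖φ ξ‖) := by
    intro ξ
    have := pow_le_one_add_pow (norm_nonneg ξ) hks
    have h0 : 0 ≤ ‖ξ‖ ^ s := by positivity
    calc (1 + ‖ξ‖ ^ k) * ‖φ ξ‖ ≤ (2 * (1 + ‖ξ‖ ^ s)) * ‖φ ξ‖ := by
          gcongr
          linarith
      _ = _ := by ring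
  have hi : Integrable fun ξ => (1 + ‖ξ‖ ^ k) * ‖φ ξ‖ := by
    refine (h2.const_mul 2).mono' ?_ (Filter.Eventually.of_forall fun ξ => ?_)
    · exact AEStronglyMeasurable.mul (Continuous.aestronglyMeasurable (by fun_prop)) h1.1.norm
    · rw [Real.norm_of_nonneg (by positivity)]
      exact hle ξ
  refine ⟨φ, h1, hi, h3, ?_⟩
  calc ∫ ξ, (1 + ‖ξ‖ ^ k) * ‖φ ξ‖ ≤ ∫ ξ, 2 * ((1 + ‖ξ‖ ^ s) * ‖φ ξ‖) :=
        integral_mono hi (h2.const_mul 2) hle
    _ = 2 * ∫ ξ, (1 + ‖ξ‖ ^ s) * ‖φ ξ‖ := integral_const_mul _ _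
    _ ≤ 2 * C := by gcongr

omit [InnerProductSpace ℝ V] [FiniteDimensional ℝ V] [MeasurableSpace V] [BorelSpace V] in
theorem weight_mul_le (s : ℕ) (a b : V) :
    1 + ‖a + b‖ ^ s ≤ 2 ^ s * ((1 + ‖a‖ ^ s) * (1 + ‖b‖ ^ s)) := by
  have ha : 0 ≤ ‖a‖ ^ s := by positivity
  have hb : 0 ≤ ‖b‖ ^ s := by positivity
  have h1 : ‖a + b‖ ^ s ≤ 2 ^ (s - 1) * (‖a‖ ^ s + ‖b‖ ^ s) :=
    (pow_le_pow_left₀ (norm_nonneg _) (norm_add_le a b) s).trans
      (add_pow_le (norm_nonneg a) (norm_nonneg b) s)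
  have h2 : (2 : ℝ) ^ (s - 1) ≤ 2 ^ s := pow_le_pow_right₀ (by norm_num) (Nat.sub_le s 1)
  have h3 : (1 : ℝ) ≤ 2 ^ s := one_le_pow₀ (by norm_num)
  calc 1 + ‖a + b‖ ^ s ≤ 1 + 2 ^ (s - 1) * (‖a‖ ^ s + ‖b‖ ^ s) := by linarith
    _ ≤ 2 ^ s * 1 + 2 ^ s * (‖a‖ ^ s + ‖b‖ ^ s) := by
        have : 2 ^ (s - 1) * (‖a‖ ^ s + ‖b‖ ^ s) ≤ 2 ^ s * (‖a‖ ^ s + ‖b‖ ^ s) := by gcongr
        linarith
    _ ≤ 2 ^ s * ((1 + ‖a‖ ^ s) * (1 + ‖b‖ ^ s)) := by
        rw [← mul_add]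
        gcongr
        nlinarith [mul_nonneg ha hb]

open scoped Convolution in
theorem wr_mul {s : ℕ} {f g : V → ℂ} {C C' : ℝ} (h : WienerRep s f C) (h' : WienerRep s g C') :
    WienerRep s (fun x => f x * g x) (2 ^ s * (C * C')) := by
  have hC0 := h.nonneg
  have hC0' := h'.nonneg
  obtain ⟨φ, h1, h2, h3, h4⟩ := h
  obtain ⟨ψ, g1, g2, g3, g4⟩ := h'
  set Φ : V → ℝ := fun ξ => (1 + ‖ξ‖ ^ s) * ‖φ ξ‖ with hΦ
  set Ψ : V → ℝ := fun ξ => (1 + ‖ξ‖ ^ s) * ‖ψ ξ‖ with hΨ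
  set L := ContinuousLinearMap.mul ℂ ℂ with hL
  set LR := ContinuousLinearMap.mul ℝ ℝ with hLR
  have hconvI : Integrable (φ ⋆[L] ψ) := h1.integrable_convolution L g1
  have hconvR : Integrable (Φ ⋆[LR] Ψ) := h2.integrable_convolution LR g2
  have hle : ∀ᵐ ξ : V, (1 + ‖ξ‖ ^ s) * ‖(φ ⋆[L] ψ) ξ‖ ≤ 2 ^ s * (Φ ⋆[LR] Ψ) ξ := by
    have hex := h2.ae_convolution_exists LR g2
    filter_upwards [hex] with ξ hξ
    have hξ' : Integrable (fun t => Φ t * Ψ (ξ - t)) := by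
      have := hξ.integrable
      simpa [hLR] using this
    rw [convolution_def, convolution_def, ← integral_const_mul]
    simp only [hL, hLR, ContinuousLinearMap.mul_apply']
    calc (1 + ‖ξ‖ ^ s) * ‖∫ t, φ t * ψ (ξ - t)‖
        ≤ (1 + ‖ξ‖ ^ s) * ∫ t, ‖φ t * ψ (ξ - t)‖ := by
          gcongr
          exact norm_integral_le_integral_norm _
      _ = ∫ t, (1 + ‖ξ‖ ^ s) * ‖φ t * ψ (ξ - t)‖ := (integral_const_mul _ _).symm
      _ ≤ ∫ t, 2 ^ s * (Φ t * Ψ (ξ - t)) := by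
          refine integral_mono_of_nonneg (Filter.Eventually.of_forall fun t => by positivity)
            (hξ'.const_mul _) (Filter.Eventually.of_forall fun t => ?_)
          simp only [hΦ, hΨ]
          have hw := weight_mul_le s t (ξ - t)
          rw [add_sub_cancel] at hw
          calc (1 + ‖ξ‖ ^ s) * ‖φ t * ψ (ξ - t)‖
              ≤ (2 ^ s * ((1 + ‖t‖ ^ s) * (1 + ‖ξ - t‖ ^ s))) * ‖φ t * ψ (ξ - t)‖ := by gcongr
            _ = _ := by rw [norm_mul]; ring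
  have hi : Integrable fun ξ => (1 + ‖ξ‖ ^ s) * ‖(φ ⋆[L] ψ) ξ‖ := by
    refine (hconvR.const_mul (2 ^ s)).mono' ?_ ?_
    · exact AEStronglyMeasurable.mul (Continuous.aestronglyMeasurable (by fun_prop))
        hconvI.1.norm
    · filter_upwards [hle] with ξ hξ
      rw [Real.norm_of_nonneg (by positivity)]
      exact hξ
  refine ⟨φ ⋆[L] ψ, hconvI, hi, fun x => ?_, ?_⟩
  · beta_reduce
    rw [h3, g3, Real.fourierInv_eq_fourier_neg, Real.fourierInv_eq_fourier_neg,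
      Real.fourierInv_eq_fourier_neg]
    exact (Real.fourier_mul_convolution_eq h1 g1 (-x)).symm
  · calc ∫ ξ, (1 + ‖ξ‖ ^ s) * ‖(φ ⋆[L] ψ) ξ‖ ≤ ∫ ξ, 2 ^ s * (Φ ⋆[LR] Ψ) ξ :=
          integral_mono_ae hi (hconvR.const_mul _) hle
      _ = 2 ^ s * ∫ ξ, (Φ ⋆[LR] Ψ) ξ := integral_const_mul _ _
      _ = 2 ^ s * ((∫ ξ, Φ ξ) * ∫ ξ, Ψ ξ) := by
          rw [integral_convolution LR h2 g2]
          simp [hLR]
      _ ≤ 2 ^ s * (C * C') := by
          have : 0 ≤ ∫ ξ, Ψ ξ := integral_nonneg fun ξ => by positivity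
          gcongr

theorem moment_integrable {s k : ℕ} (hks : k ≤ s) {φ : V → ℂ} (h1 : Integrable φ)
    (h2 : Integrable fun ξ => (1 + ‖ξ‖ ^ s) * ‖φ ξ‖) :
    Integrable fun ξ => ‖ξ‖ ^ k * ‖φ ξ‖ := by
  refine h2.mono' ?_ (Filter.Eventually.of_forall fun ξ => ?_)
  · exact AEStronglyMeasurable.mul (Continuous.aestronglyMeasurable (by fun_prop)) h1.1.norm
  · rw [Real.norm_of_nonneg (by positivity)]
    gcongr
    exact pow_le_one_add_pow (norm_nonneg _) hks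

theorem wr_contDiff {s : ℕ} {f : V → ℂ} {C : ℝ} (h : WienerRep s f C) : ContDiff ℝ s f := by
  obtain ⟨φ, h1, h2, h3, h4⟩ := h
  have e : f = fun x => 𝓕 φ (-x) := by
    funext x; rw [h3, Real.fourierInv_eq_fourier_neg]
  have hc : ContDiff ℝ (s : ℕ∞) (𝓕 φ) := Real.contDiff_fourier fun n hn =>
    moment_integrable (by exact_mod_cast hn) h1 h2
  rw [e]
  exact hc.comp contDiff_neg

theorem wr_norm_iteratedFDeriv_le {s : ℕ} {f : V → ℂ} {C : ℝ} (h : WienerRep s f C) {k : ℕ}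
    (hk : k ≤ s) (y : V) : ‖iteratedFDeriv ℝ k f y‖ ≤ (2 * π) ^ k * C := by
  obtain ⟨φ, h1, h2, h3, h4⟩ := h
  set φ' : V → ℂ := fun ξ => φ (-ξ) with hφ'
  have e : f = 𝓕 φ' := by
    funext x; rw [h3, Real.fourierInv_eq_fourier_comp_neg]
  have g1 : Integrable φ' := h1.comp_neg
  have g2 : Integrable fun ξ => (1 + ‖ξ‖ ^ s) * ‖φ' ξ‖ := by
    have := h2.comp_neg
    simpa using this
  have g4 : ∫ ξ, (1 + ‖ξ‖ ^ s) * ‖φ' ξ‖ ≤ C := by
    rw [← integral_neg_eq_self] at h4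
    simpa using h4
  have hit := Real.iteratedFDeriv_fourier (f := φ') (N := (s : ℕ∞)) (n := k)
    (fun n hn => moment_integrable (by exact_mod_cast hn) g1 g2) g1.1 (by exact_mod_cast hk)
  rw [e, hit]
  have hL : ‖(innerSL ℝ : V →L[ℝ] V →L[ℝ] ℝ)‖ ≤ 1 := norm_innerSL_le ℝ
  calc ‖𝓕 (fun v => VectorFourier.fourierPowSMulRight (innerSL ℝ) φ' v k) y‖
      ≤ ∫ v, ‖VectorFourier.fourierPowSMulRight (innerSL ℝ) φ' v k‖ :=
        VectorFourier.norm_fourierIntegral_le_integral_norm _ _ _ _ _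
    _ ≤ ∫ v, (2 * π) ^ k * ((1 + ‖v‖ ^ s) * ‖φ' v‖) := by
        refine integral_mono_of_nonneg (Filter.Eventually.of_forall fun v => norm_nonneg _)
          (g2.const_mul _) (Filter.Eventually.of_forall fun v => ?_)
        refine (VectorFourier.norm_fourierPowSMulRight_le _ _ _ _).trans ?_
        have hv := pow_le_one_add_pow (norm_nonneg v) hk
        calc (2 * π * ‖(innerSL ℝ : V →L[ℝ] V →L[ℝ] ℝ)‖) ^ k * ‖v‖ ^ k * ‖φ' v‖
            ≤ (2 * π * 1) ^ k * (1 + ‖v‖ ^ s) * ‖φ' v‖ := by gcongr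
          _ = _ := by rw [mul_one]; ring
    _ = (2 * π) ^ k * ∫ v, (1 + ‖v‖ ^ s) * ‖φ' v‖ := integral_const_mul _ _
    _ ≤ _ := by gcongr

theorem wr_norm_le {s : ℕ} {f : V → ℂ} {C : ℝ} (h : WienerRep s f C) (y : V) : ‖f y‖ ≤ C := by
  have := wr_norm_iteratedFDeriv_le h (Nat.zero_le s) y
  simpa using this

end General

variable {d : ℕ}

theorem wr_bddC {s : ℕ} {f : E d → ℂ} {C : ℝ} (h : WienerRep s f C) : BddC s f :=
  ⟨wr_contDiff h, fun k hk => ⟨(2 * π) ^ k * C, fun x => wr_norm_iteratedFDeriv_le h hk x⟩⟩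

theorem fourierInv_eq_osc (φ : E d → ℂ) :
    𝓕⁻ φ = osc volume (fun ξ : E d => (2 * π) • ξ) φ := by
  funext y
  rw [Real.fourierInv_eq', osc]
  refine integral_congr_ae (Filter.Eventually.of_forall fun ξ => ?_)
  simp only [smul_eq_mul, real_inner_smul_left]

theorem norm_two_pi_smul (ξ : E d) : ‖(2 * π) • ξ‖ = 2 * π * ‖ξ‖ := by
  rw [norm_smul, Real.norm_of_nonneg (by positivity)]

theorem aesm_two_pi : AEStronglyMeasurable (fun ξ : E d => (2 * π) • ξ) volume :=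
  Continuous.aestronglyMeasurable (by fun_prop)

theorem moment_two_pi {s k : ℕ} (hks : k ≤ s) {φ : E d → ℂ} (h1 : Integrable φ)
    (h2 : Integrable fun ξ => (1 + ‖ξ‖ ^ s) * ‖φ ξ‖) :
    Integrable fun ξ : E d => ‖(2 * π) • ξ‖ ^ k * ‖φ ξ‖ := by
  refine ((moment_integrable hks h1 h2).const_mul ((2 * π) ^ k)).congr
    (Filter.Eventually.of_forall fun ξ => ?_)
  simp only
  rw [norm_two_pi_smul, mul_pow]; ring

/-- a Fourier multiplier of polynomial growth -/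
theorem wr_symbol {s k : ℕ} {φ σ : E d → ℂ} {C A : ℝ} (hA : 0 ≤ A) (h1 : Integrable φ)
    (h2 : Integrable fun ξ => (1 + ‖ξ‖ ^ (s + k)) * ‖φ ξ‖)
    (h4 : ∫ ξ, (1 + ‖ξ‖ ^ (s + k)) * ‖φ ξ‖ ≤ C) (hσm : Continuous σ)
    (hσ : ∀ ξ, ‖σ ξ‖ ≤ A * ‖ξ‖ ^ k) {g : E d → ℂ} (hg : ∀ x, g x = 𝓕⁻ (fun ξ => σ ξ * φ ξ) x) :
    WienerRep s g (2 * A * C) := by
  have hle : ∀ ξ : E d, (1 + ‖ξ‖ ^ s) * ‖σ ξ * φ ξ‖ ≤ 2 * A * ((1 + ‖ξ‖ ^ (s + k)) * ‖φ ξ‖) := by
    intro ξ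
    have h5 := pow_le_one_add_pow (norm_nonneg ξ) (Nat.le_add_left k s)
    have h6 : ‖ξ‖ ^ s * ‖ξ‖ ^ k = ‖ξ‖ ^ (s + k) := (pow_add _ _ _).symm
    have h7 : (1 + ‖ξ‖ ^ s) * ‖ξ‖ ^ k ≤ 2 * (1 + ‖ξ‖ ^ (s + k)) := by
      rw [add_mul, one_mul, h6]; linarith
    calc (1 + ‖ξ‖ ^ s) * ‖σ ξ * φ ξ‖ = (1 + ‖ξ‖ ^ s) * ‖σ ξ‖ * ‖φ ξ‖ := by
          rw [norm_mul]; ring
      _ ≤ (1 + ‖ξ‖ ^ s) * (A * ‖ξ‖ ^ k) * ‖φ ξ‖ := by gcongr; exact hσ ξ
      _ = A * ((1 + ‖ξ‖ ^ s) * ‖ξ‖ ^ k) * ‖φ ξ‖ := by ring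
      _ ≤ A * (2 * (1 + ‖ξ‖ ^ (s + k))) * ‖φ ξ‖ := by gcongr
      _ = _ := by ring
  have hm : AEStronglyMeasurable (fun ξ => σ ξ * φ ξ) volume := hσm.aestronglyMeasurable.mul h1.1
  have hi : Integrable fun ξ : E d => (1 + ‖ξ‖ ^ s) * ‖σ ξ * φ ξ‖ := by
    refine (h2.const_mul (2 * A)).mono' ?_ (Filter.Eventually.of_forall fun ξ => ?_)
    · exact AEStronglyMeasurable.mul (Continuous.aestronglyMeasurable (by fun_prop)) hm.norm
    · rw [Real.norm_of_nonneg (by positivity)]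
      exact hle ξ
  have hi0 : Integrable fun ξ : E d => σ ξ * φ ξ := by
    refine hi.mono' hm (Filter.Eventually.of_forall fun ξ => ?_)
    have : 0 ≤ ‖ξ‖ ^ s := by positivity
    exact le_mul_of_one_le_left (norm_nonneg _) (by linarith)
  refine ⟨_, hi0, hi, hg, ?_⟩
  calc ∫ ξ, (1 + ‖ξ‖ ^ s) * ‖σ ξ * φ ξ‖ ≤ ∫ ξ, 2 * A * ((1 + ‖ξ‖ ^ (s + k)) * ‖φ ξ‖) :=
        integral_mono hi (h2.const_mul _) hle
    _ = 2 * A * ∫ ξ, (1 + ‖ξ‖ ^ (s + k)) * ‖φ ξ‖ := integral_const_mul _ _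
    _ ≤ _ := by gcongr

theorem wr_pd {s : ℕ} {f : E d → ℂ} {C : ℝ} (h : WienerRep (s + 1) f C) (j : Fin d) :
    WienerRep s (pd j f) (4 * π * C) := by
  obtain ⟨φ, h1, h2, h3, h4⟩ := h
  have hf : f = osc volume (fun ξ : E d => (2 * π) • ξ) φ := by
    rw [← fourierInv_eq_osc]; exact funext h3
  have hm1 : Integrable fun ξ : E d => ‖(2 * π) • ξ‖ * ‖φ ξ‖ := by
    simpa using moment_two_pi (k := 1) (by omega) h1 h2
  have hp := pd_osc aesm_two_pi h1 hm1 j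
  rw [← hf] at hp
  have := wr_symbol (s := s) (k := 1) (φ := φ) (σ := fun ξ => I * (((2 * π) • ξ : E d) j : ℝ))
    (A := 2 * π) (C := C) (by positivity) h1 h2 h4 ?_ ?_ (g := pd j f) ?_
  · convert this using 1; ring
  · fun_prop
  · intro ξ
    rw [norm_mul, Complex.norm_I, one_mul, Complex.norm_real, pow_one, ← norm_two_pi_smul]
    exact PiLp.norm_apply_le _ j
  · intro x
    rw [hp, fourierInv_eq_osc]

theorem wr_lap {s : ℕ} {f : E d → ℂ} {C : ℝ} (h : WienerRep (s + 2) f C) :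
    WienerRep s (lap f) (8 * π ^ 2 * C) := by
  obtain ⟨φ, h1, h2, h3, h4⟩ := h
  have hf : f = osc volume (fun ξ : E d => (2 * π) • ξ) φ := by
    rw [← fourierInv_eq_osc]; exact funext h3
  have hm1 : Integrable fun ξ : E d => ‖(2 * π) • ξ‖ * ‖φ ξ‖ := by
    simpa using moment_two_pi (k := 1) (by omega) h1 h2
  have hm2 := moment_two_pi (k := 2) (by omega) h1 h2
  have := wr_symbol (s := s) (k := 2) (φ := φ)
    (σ := fun ξ => -((‖((2 * π) • ξ : E d)‖ ^ 2 : ℝ) : ℂ))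
    (A := (2 * π) ^ 2) (C := C) (by positivity) h1 h2 h4 ?_ ?_ (g := lap f) ?_
  · convert this using 1; ring
  · fun_prop
  · intro ξ
    rw [norm_neg, Complex.norm_real, norm_two_pi_smul, Real.norm_of_nonneg (by positivity),
      mul_pow]
  · intro x
    rw [hf, lap_osc aesm_two_pi h1 hm1 hm2, fourierInv_eq_osc]

/-- the Euler derivative of a solution of the resolvent equation is a Wiener function -/
theorem wr_eul {s : ℕ} {f h : E d → ℂ} {C C' : ℝ} {κ : ℂ} (hf : WienerRep (s + 2) f C)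
    (hh : WienerRep s h C')
    (he : ∀ y, κ * f y - (I * lap f y - (1 / 2) * eul f y) = h y) :
    WienerRep s (eul f) (2 * (C' + 2 * ‖κ‖ * C + 8 * π ^ 2 * C)) := by
  have h1 := wr_const_mul (wr_lower (Nat.le_add_right s 2) hf) κ
  have h2 := wr_const_mul (wr_lap hf) I
  have h3 := wr_const_mul ((wr_sub hh h1).add h2) 2
  rw [Complex.norm_I, one_mul] at h3
  have h4 : ‖(2 : ℂ)‖ = 2 := by simp
  rw [h4] at h3
  refine wr_congr (h3.mono (le_of_eq (by ring))) fun y => ?_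
  have := he y
  linear_combination 2 * this

/-- explicit formula for the resolvent, time integral outside -/
theorem fourierInv_dens_time {κ : ℂ} (hκ : 0 < κ.re) {φ : E d → ℂ} (hm : Measurable φ)
    (hφ : Integrable φ) (y : E d) :
    𝓕⁻ (dens κ φ) y = ∫ t in Ioi (0 : ℝ), cexp (-(κ * (t : ℂ))) *
      ∫ ξ, cexp (((2 * π * Real.exp (-(t / 2)) * inner ℝ ξ y : ℝ) : ℂ) * I) *
        (cexp (((-(4 * π ^ 2 * (1 - Real.exp (-t)) * ‖ξ‖ ^ 2) : ℝ) : ℂ) * I) * φ ξ) := by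
  rw [fourierInv_dens hκ hm hφ, res, osc, integral_prod _ (integrable_osc
    (continuous_zet (d := d)).aestronglyMeasurable (integrable_ker hκ hm hφ) y)]
  refine integral_congr_ae (Filter.Eventually.of_forall fun t => ?_)
  simp only
  rw [← integral_const_mul]
  refine integral_congr_ae (Filter.Eventually.of_forall fun ξ => ?_)
  simp only [ker, zet, real_inner_smul_left]
  ring

/-- explicit formula for the resolvent, frequency integral outside -/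
theorem fourierInv_dens_freq {κ : ℂ} (hκ : 0 < κ.re) {φ : E d → ℂ} (hm : Measurable φ)
    (hφ : Integrable φ) (y : E d) :
    𝓕⁻ (dens κ φ) y = ∫ ξ, φ ξ * ∫ t in Ioi (0 : ℝ), cexp (-(κ * (t : ℂ))) *
      cexp (((-(4 * π ^ 2 * (1 - Real.exp (-t)) * ‖ξ‖ ^ 2) : ℝ) : ℂ) * I) *
      cexp (((2 * π * Real.exp (-(t / 2)) * inner ℝ ξ y : ℝ) : ℂ) * I) := by
  rw [fourierInv_dens hκ hm hφ, res, osc, integral_prod_symm _ (integrable_osc
    (continuous_zet (d := d)).aestronglyMeasurable (integrable_ker hκ hm hφ) y)]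
  refine integral_congr_ae (Filter.Eventually.of_forall fun ξ => ?_)
  simp only
  rw [← integral_const_mul]
  refine integral_congr_ae (Filter.Eventually.of_forall fun t => ?_)
  simp only [ker, zet, real_inner_smul_left]
  ring

end Vale.Agent.P139.H940
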